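import Vale.Agent.P014T.Rk.Alg

/-! # P014T: the `L`-value twisted by a discrete logarithm and the theta element -/

set_option linter.all false

open Complex UpperHalfPlane Filter Topology Set MeasureTheory
open scoped Real MatrixGroups ComplexConjugate

noncomputable section

namespace Vale.Agent.P014T.Pl

open An Rk P004N P004Z

variable {N l n D : ℕ} {G : ℍ → ℂ} {a a' : ℕ → ℤ} {S : Finset ℕ} {w : ℕ → ℂ} {w₀ : ℝ}

/-- the Euler factors of the form at `s = 1` -/
def ES (N : ℕ) (a : ℕ → ℤ) (S : Finset ℕ) : ℚ :=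
  ∏ p ∈ S, (1 - a p / p + if p ∣ N then 0 else (1 / p : ℚ))

namespace Lw

theorem rl' {p : ℕ} {x : ℂ} (h : RN N G a) (hp : p.Prime) (m : ∀ n, w (p * n) = x * w n) :
    Rl (fun n => w n * a n) p (x * a p) (if p ∣ N then 0 else p * x ^ 2) := fun n => by
  by_cases e : p ∣ N
  · simp only [m, (H461.RN.up hp e h).2 n, e, if_true, zero_mul, ite_self, Int.cast_mul]
    ring
  · have := h.te p hp e n
    simp only [m, e, if_false] at this ⊢
    split_ifs at this ⊢ with d
    · obtain ⟨n, rfl⟩ := d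
      rw [Nat.mul_div_cancel_left _ hp.pos] at this ⊢
      rw [m]
      linear_combination x ^ 2 * w n * this
    · linear_combination x * w n * this

theorem pr_ne (hS : ∀ p ∈ S, p.Prime) : ∏ p ∈ S, p ≠ 0 :=
  Finset.prod_ne_zero_iff.2 fun p k => (hS p k).ne_zero

/-- Euler factors for weights which are invariant under the primes of `S` -/
theorem dep (h : RN N G a) (k : Pw w) (hS : ∀ p ∈ S, p.Prime)
    (m : ∀ p ∈ S, ∀ n, w (p * n) = w n) :
    Gd (cp (∏ p ∈ S, p) fun n => w n * a n) ∧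
    M0 (cp (∏ p ∈ S, p) fun n => w n * a n) = ES N a S * M0 (fun n => w n * a n) ∧
    (M0 (fun n => w n * a n) = 0 →
      M1 (cp (∏ p ∈ S, p) fun n => w n * a n) = ES N a S * M1 fun n => w n * a n) := by
  have := (gw h k).dep (α := fun p => 1 * a p) (ρ := fun p => if p ∣ N then 0 else p * 1 ^ 2) _
    (pr_ne hS) fun p e => by
      rw [Nat.primeFactors_prod hS] at e
      exact rl' h (hS p e) fun n => by rw [m p e, one_mul]
  rwa [Eu, Nat.primeFactors_prod hS, Finset.prod_congr rfl (g := fun p => ((1 - a p / p +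
    if p ∣ N then 0 else (1 / p : ℚ) : ℚ) : ℂ)) fun p e => ?_, ← Rat.cast_prod] at this
  have : (p : ℂ) ≠ 0 := Nat.cast_ne_zero.2 (hS p e).ne_zero
  split_ifs
  · simp
  · push_cast
    field_simp

theorem ms (h : RN N G a) (x : ℝ) : Lw a (fun n => ee (n * x)) =
    2 * π * ∫ y in Ioi (0 : ℝ), G (ofComplex (x + Complex.I * y)) := by
  rw [Lw_eq, M0]
  congr 1
  refine setIntegral_congr_fun measurableSet_Ioi fun t (k : 0 < t) => ?_
  have := (h.qe (pt x t)).tsum_eq
  simp only [ee_pt _ k] at this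
  simpa only [qs, mul_left_comm ((a _ : ℤ) : ℂ), mul_assoc (ee _), pt] using this

variable [NeZero l]

theorem sum_z (f : ℕ → ℂ) : ∑ k ∈ Finset.range l, f k = ∑ i : ZMod l, f i.val := by
  obtain _ | l := l
  · exact absurd rfl (NeZero.ne 0)
  · exact Finset.sum_range f

theorem ee_chr (j : ZMod l) (n : ℕ) : ee (n * (j.val / l)) = ZMod.stdAddChar (j * (n : ZMod l)) := by
  have : j * n = ((j.val * n : ℤ) : ZMod l) := by simp
  rw [this, ZMod.stdAddChar_coe, ee]
  congr 1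
  push_cast
  ring

theorem Lj_neg (a : ℕ → ℤ) (j : ZMod l) : Lj a l (-j) = conj (Lj a l j) := by
  simp only [Lj, ← Lw_conj, ee_chr, neg_mul, AddChar.map_neg_eq_conj]

theorem even_re (a : ℕ → ℤ) {v : ZMod l → ℂ} (e : ∀ j, v (-j) = v j) :
    ∑ j, v j * Lj a l j = ∑ j, v j * (Lj a l j).re := by
  have := Equiv.sum_comp (Equiv.neg (ZMod l)) fun j => v j * Lj a l j
  simp only [Equiv.neg_apply, e, Lj_neg] at this
  refine mul_left_cancel₀ two_ne_zero ?_
  rw [two_mul]
  nth_rw 2 [← this]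
  rw [← Finset.sum_add_distrib, Finset.mul_sum]
  exact Finset.sum_congr rfl fun j _ => by rw [← mul_add, add_conj]; push_cast; ring

theorem Lj_zero (a : ℕ → ℤ) : Lj a l 0 = Lw a 1 := by
  simp only [Lj, ee_chr, zero_mul, AddChar.map_zero_eq_one]
  rfl

theorem cop (hl : l.Prime) (n : ℕ) : n.Coprime l ↔ (n : ZMod l) ≠ 0 := by
  rw [Nat.coprime_comm, hl.coprime_iff_not_dvd, Ne, ZMod.natCast_eq_zero_iff]

theorem sum_Lj (h : RN N G a) (hl : l.Prime) (h0 : Lw a 1 = 0) : ∑ j, Lj a l j = 0 := by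
  have e := Lw_dep (w := 1) h (pw_const 1) hl.ne_zero (by simp)
  rw [h0, mul_zero] at e
  have := Lw_sum h Finset.univ (f := fun (j : ZMod l) n => ee (n * (j.val / l))) fun j _ => by
    simpa only [Rat.cast_div, Rat.cast_natCast] using pw_ee (j.val / l)
  rw [show ∑ j, Lj a l j = _ from this.symm, show (fun n : ℕ => ∑ j : ZMod l, ee (n * (j.val / l)))
    = fun n => l * ((1 : ℕ → ℂ) n - cp l 1 n) from funext fun n => ?_, Lw_smul,
    Lw_sub (w := 1) (w' := cp l 1) h (pw_const 1) ((pw_const 1).cp hl.ne_zero), h0, e, sub_zero, mul_zero]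
  simp only [ee_chr, AddChar.sum_mulShift _ (ZMod.isPrimitive_stdAddChar l), cp, cop hl]
  by_cases z : (n : ZMod l) = 0 <;> simp [z]

theorem cong {R : Type*} [CommRing R] (hl : l.Prime) {ζ : R} (hζ : IsIntegral ℤ ζ)
    (z1 : ζ ^ l = 1) (z0 : ∑ b : ZMod l, ζ ^ b.val = 0) {v k : ZMod l → ℤ} {q : ℤ} (v0 : v 0 = 0)
    (hv : ∀ b c, b ≠ 0 → c ≠ 0 → q ∣ v (b * c) - v b - v c) (k0 : k 0 = 0) (ks : ∑ j, k j = 0) :
    ∃ y : R, IsIntegral ℤ y ∧ ∑ j, hat ζ (fun b => (v b : R)) j * k j = (∑ j, v j * k j : ℤ) + q * y := by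
  have := Fact.mk hl
  have one : ∀ j : ZMod l, j ≠ 0 → ∃ y : R, IsIntegral ℤ y ∧ hat ζ (fun b => (v b : R)) j =
      ∑ c : ZMod l, ζ ^ (-c).val * v c + v j + q * y := fun j hj => by
    have r : ∀ b : ZMod l, ∃ r : ℤ, v b = v (b * j) - v j + (if b = 0 then v j else 0) + q * r :=
      fun b => by
        split_ifs with e
        · exact ⟨0, by simp [e, v0]⟩
        · obtain ⟨r, f⟩ := hv b j e hj
          exact ⟨-r, by linear_combination -f⟩
    choose r hr using r
    refine ⟨∑ b, ζ ^ (-(b * j)).val * r b, IsIntegral.sum _ fun b _ => (hζ.pow _).mul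
      (isIntegral_intCast _), ?_⟩
    have e1 := Equiv.sum_comp (Equiv.mulRight₀ j hj) fun c : ZMod l => ζ ^ (-c).val * v c
    have e2 := Equiv.sum_comp ((Equiv.mulRight₀ j hj).trans (Equiv.neg _)) fun c : ZMod l => ζ ^ c.val
    simp only [Equiv.mulRight₀_apply, Equiv.trans_apply, Equiv.neg_apply] at e1 e2
    rw [hat, Finset.sum_congr rfl fun b _ => by rw [hr b], ← e1, Finset.mul_sum]
    push_cast
    simp only [mul_add, mul_sub, Finset.sum_add_distrib, Finset.sum_sub_distrib, ← Finset.sum_mul,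
      e2, z0, mul_left_comm _ (q : R)]
    simp
  choose! y hy using one
  refine ⟨∑ j, if j = 0 then 0 else y j * k j, IsIntegral.sum _ fun j _ => ?_, ?_⟩
  · split_ifs with e
    · exact isIntegral_zero
    · exact (hy j e).1.mul (isIntegral_intCast _)
  · rw [Finset.sum_congr rfl (g := fun j => (∑ c : ZMod l, ζ ^ (-c).val * v c) * k j + v j * k j +
      q * if j = 0 then 0 else y j * k j) fun j _ => ?_]
    · rw [Finset.sum_add_distrib, Finset.sum_add_distrib, ← Finset.mul_sum, ← Finset.mul_sum,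
        ← Int.cast_sum, ks]
      simp
    · split_ifs with e
      · simp [e, k0]
      · rw [(hy j e).2]
        ring

theorem ex_root {F : Type*} [Field F] [IsAlgClosed F] (j : F →+* ℂ) (l : ℕ) [NeZero l] :
    ∃ ζ : F, j ζ = cexp (2 * π * Complex.I / l) := by
  have : CharZero F := j.charZero
  obtain ⟨ζ, h⟩ := HasEnoughRootsOfUnity.exists_primitiveRoot F l
  obtain ⟨i, -, e⟩ := (h.map_of_injective j.injective).eq_pow_of_pow_eq_one
    (isPrimitiveRoot_exp l (NeZero.ne l)).pow_eq_one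
  exact ⟨ζ ^ i, by rw [map_pow, e]⟩

end Lw

open Lw

/-- **the twisted value is congruent to the theta element** -/
theorem lwx (h : RN N G a) (h0 : Lw a 1 = 0) (w0 : w₀ ≠ 0)
    (hD : ∀ r : ℚ, ∃ k : ℤ, D * (Lw a fun n => ee (n * r)).re = k * w₀) (hS : ∀ p ∈ S, p.Prime)
    (ha : ∀ n : ℕ, n.Coprime (∏ p ∈ S, p) → a' n = a n) (hl : l.Prime) (lS : l ∉ S)
    {W : ZMod l → ZMod (2 ^ n)} (mul : ∀ b c, b ≠ 0 → c ≠ 0 → W (b * c) = W b + W c)
    (W1 : W (-1) = 0) (WS : ∀ p ∈ S, W p = 0) {F : Type*} [Field F] [IsAlgClosed F] (j : F →+* ℂ)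
    {x : F} (hx : j x * w₀ = Lw a' (cp (∏ p ∈ insert l S, p) fun k => (W k).val)) :
    ∃ (t : ℤ) (y : F), IsIntegral ℤ y ∧ (t * w₀ : ℂ) = D * (2 * π * ∑ k ∈ Finset.range l,
      (W k).val * ∫ y in Ioi (0 : ℝ), G (ofComplex ((k / l : ℝ) + Complex.I * y))) ∧
      D * l * x = ES N a S * (t + 2 ^ n * y) := by
  have := Fact.mk hl
  have : CharZero F := j.charZero
  obtain ⟨v, hv⟩ : ∃ v : ZMod l → ℤ, ∀ b, v b = if b = 0 then 0 else ((W b).val : ℤ) := ⟨_, fun _ => rfl⟩
  have inv : ∀ c, c ≠ 0 → W c = 0 → ∀ b, v (c * b) = v b := fun c c0 e b => by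
    rw [hv, hv]
    by_cases f : b = 0
    · simp [f]
    · rw [if_neg f, if_neg (mul_ne_zero c0 f), mul c b c0 f, e, zero_add]
  have ev : ∀ b, v (-b) = v b := fun b => by rw [← neg_one_mul, inv _ (by simp) W1]
  choose k hk using fun i : ZMod l => hD (i.val / l)
  simp only [Rat.cast_div, Rat.cast_natCast] at hk
  replace hk : ∀ i, (D * (Lj a l i).re : ℂ) = k i * w₀ := fun i => by exact_mod_cast hk i
  have w0' : (w₀ : ℂ) ≠ 0 := ofReal_ne_zero.2 w0
  have l0 : (l : ℂ) ≠ 0 := Nat.cast_ne_zero.2 hl.ne_zero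
  have k0 : k 0 = 0 := by simpa [Lj_zero, h0, w0] using (hk 0).symm
  have ks : ∑ i, k i = 0 := by
    have := even_re a (v := fun _ : ZMod l => D) fun _ => rfl
    rw [← Finset.mul_sum, sum_Lj h hl h0, mul_zero] at this
    simp only [hk, ← Finset.sum_mul] at this
    exact_mod_cast (mul_eq_zero.1 this.symm).resolve_right w0'
  obtain ⟨ζ, hζ⟩ := ex_root j l
  have pz : IsPrimitiveRoot ζ l :=
    (hζ ▸ isPrimitiveRoot_exp l hl.ne_zero).of_map_of_injective j.injective
  obtain ⟨y, iy, hy⟩ := cong (q := 2 ^ n) hl (pz.isIntegral hl.pos) pz.pow_eq_one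
    (j.injective (by
      have := AddChar.sum_mulShift (1 : ZMod l) (ZMod.isPrimitive_stdAddChar l)
      simpa [hζ, chr] using this)) (v := v) (by simp [hv]) (fun b c b0 c0 => by
      rw [show (2 : ℤ) ^ n = (2 ^ n : ℕ) by simp, ← ZMod.intCast_zmod_eq_zero_iff_dvd]
      simp [hv, b0, c0, mul b c b0 c0]) k0 ks
  refine ⟨∑ i, v i * k i, y, iy, ?_, j.injective (mul_right_cancel₀ w0' ?_)⟩
  · have := even_re a (v := fun i => D * v i) fun i => by rw [ev]
    simp only [mul_right_comm (D : ℂ) _ ((_ : ℝ) : ℂ), hk] at this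
    rw [Int.cast_sum, Finset.sum_mul, Finset.sum_congr rfl (g := fun i => (k i * w₀ * v i : ℂ))
      fun i _ => by push_cast; ring, ← this, Finset.mul_sum, Finset.mul_sum, sum_z]
    refine Finset.sum_congr rfl fun i _ => ?_
    rw [mul_left_comm (2 * π : ℂ), ← ms h, ZMod.natCast_zmod_val, hv]
    split_ifs with e
    · simp only [e, Lj_zero, h0, ZMod.val_zero, Nat.cast_zero, zero_div, ofReal_zero, mul_zero, ee,
        exp_zero]
      rw [show Lw a (fun _ => 1) = 0 from h0]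
      simp
    · simp only [Lj, ofReal_div, ofReal_natCast, Int.cast_natCast]
      ring
  · have e : Lw a' (cp (∏ p ∈ insert l S, p) fun k => (W k).val) =
        M0 (cp (∏ p ∈ S, p) fun n => (v n : ℂ) * a n) := by
      rw [Lw_eq]
      refine congrArg M0 (funext fun m => ?_)
      simp only [cp, Finset.prod_insert lS, Nat.coprime_mul_iff_right, cop hl, hv]
      by_cases c : m.Coprime (∏ p ∈ S, p)
      · by_cases d : (m : ZMod l) = 0 <;> simp [c, d, ha m c]
      · simp [c]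
    have f := (dep h (pw_mod hl.ne_zero fun b => (v b : ℂ)) hS fun p m b => by
      rw [Nat.cast_mul, inv _ ((cop hl p).1 ((Nat.coprime_primes (hS p m) hl).2
        fun e => lS (e ▸ m))) (WS p m)]).2.1
    have g := even_re a (v := fun i => D * ZMod.dft (fun b => (v b : ℂ)) i) fun i => by
      rw [← congrFun (ZMod.dft_comp_neg fun b => (v b : ℂ)) i]
      simp only [ev]
    simp only [mul_right_comm (D : ℂ) _ ((_ : ℝ) : ℂ), hk] at g
    rw [← Lw_eq, Lw_hat h fun b => (v b : ℂ)] at f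
    have y' := congrArg j hy
    simp only [map_sum, map_mul, hat, map_pow, hζ, map_intCast, map_add] at y'
    simp only [← hat_eq, hat] at f g
    rw [map_mul, map_mul, map_mul, map_add, map_mul, map_pow, mul_assoc, hx, e, f]
    simp only [map_natCast, map_ratCast, map_intCast, map_ofNat]
    rw [Int.cast_pow, Int.cast_ofNat] at y'
    simp only [mul_assoc (D : ℂ), mul_comm _ (w₀ : ℂ), mul_assoc (w₀ : ℂ), ← Finset.mul_sum,
      mul_comm (k _ : ℂ)] at g
    simp only [mul_assoc (l : ℂ)⁻¹, ← Finset.mul_sum (a := (l : ℂ)⁻¹)]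
    rw [← y', mul_assoc (ES N a S : ℂ), mul_comm _ (w₀ : ℂ), ← g]
    field_simp

theorem nrm_le {F : Type*} [CommRing F] (ι : F →+* ℂ_[2]) {y : F} (h : IsIntegral ℤ y) :
    ‖ι y‖ ≤ 1 := by
  obtain ⟨p, m, e⟩ := map_isIntegral_int ι h
  exact (Valuation.integer.integers (NormedField.valuation (K := ℂ_[2]))).mem_of_integral
    (x := ι y) ⟨p.map (Int.castRingHom _), m.map _, by
      rw [Polynomial.eval₂_map, ← e]
      exact congrArg (fun f => Polynomial.eval₂ f (ι y) p) (RingHom.ext_int _ _)⟩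

/-- the congruence in norms -/
theorem lwx_nrm {F : Type*} [Field F] (ι : F →+* ℂ_[2]) {x y : F} {t : ℤ} {e : ℚ} (D0 : D ≠ 0)
    (hl : Odd l) (iy : IsIntegral ℤ y) (k : D * l * x = e * (t + 2 ^ n * y)) :
    ‖ι x - (e * t / (D * l) : ℚ)‖ * 2 ^ n ≤ ‖((e / D : ℚ) : ℂ_[2])‖ := by
  have : CharZero F := ι.charZero
  have nl : ‖(l : ℂ_[2])‖ = 1 := by
    rw [← map_natCast (algebraMap ℚ_[2] ℂ_[2]), norm_algebraMap', Padic.norm_natCast_eq_one_iff]
    exact hl.coprime_two_left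
  have n2 : ‖(2 : ℂ_[2])‖ = 2⁻¹ := by
    rw [← map_ofNat (algebraMap ℚ_[2] ℂ_[2]), norm_algebraMap']
    exact_mod_cast Padic.norm_p (p := 2)
  have l0 : (l : ℂ_[2]) ≠ 0 := Nat.cast_ne_zero.2 hl.pos.ne'
  have d0 : (D : ℂ_[2]) ≠ 0 := Nat.cast_ne_zero.2 D0
  have := congrArg ι k
  simp only [map_mul, map_add, map_pow, map_natCast, map_intCast, map_ratCast, map_ofNat] at this
  rw [show ι x - (e * t / (D * l) : ℚ) = (e / D : ℚ) * 2 ^ n * ι y / l by
    push_cast; field_simp; linear_combination this, norm_div, nl, div_one, norm_mul, norm_mul,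
    norm_pow, n2, mul_right_comm, mul_assoc ‖_‖, ← mul_pow, inv_mul_cancel₀ two_ne_zero, one_pow,
    mul_one]
  exact mul_le_of_le_one_right (norm_nonneg _) (nrm_le ι iy)

/-- the value and the derivative of the depleted `L`-function -/
theorem vals (h : RN N G a) (hS : ∀ p ∈ S, p.Prime) {c : ℕ → ℂ}
    (hc : ∀ n, c n = if n.Coprime (∏ p ∈ S, p) then (a n : ℂ) else 0) {L : ℂ → ℂ}
    (an : AnalyticOnNhd ℂ L {s : ℂ | 1 ≤ s.re})
    (e : ∀ s : ℂ, 2 < s.re → L s = ∑' n : ℕ, c n / (n : ℂ) ^ s) :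
    L 1 = Lw a (cp (∏ p ∈ S, p) 1) ∧ L 1 = ES N a S * Lw a 1 ∧ (Lw a 1 = 0 → deriv L 1 =
      ES N a S * (2 * π * ∫ y in Ioi (0 : ℝ), tw a 1 (Complex.I * y) * (Real.log y : ℝ))) := by
  obtain ⟨g, p, q⟩ := dep (w := 1) h (pw_const 1) hS fun _ _ _ => rfl
  obtain rfl : c = cp (∏ p ∈ S, p) fun n => (1 : ℕ → ℂ) n * a n := funext fun n => by
    simp [hc, cp]
  obtain ⟨-, u, v⟩ := g.val an e
  refine ⟨by rw [u, Lw_eq, cp_mul], by rw [u, p, Lw_eq], fun z => ?_⟩
  rw [Lw_eq] at z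
  rw [v (by rw [u, p, z, mul_zero]), q z]
  simp [M1, qs, tw]

end Vale.Agent.P014T.Pl
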