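import Vale.Agent.P014T.Pl.Du
import Vale.Agent.P014T.Kc.Tr
import Vale.Agent.P027M.M.Defs

/-! # P014T, block PRL: the corestriction of a twisted class is a weighted corestriction -/

set_option autoImplicit false
set_option linter.all false

open scoped Classical

noncomputable section

namespace Vale.Agent.P014T.Pl.Zw

open Matrix
open Vale.Agent.P022 (Qb GQ)
open Vale.Agent.P004F (M2)
open Vale.Agent.P004M.TE (Pt ga)
open Vale.Agent.P027M.M (Cyc io ze)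
open Dr

variable {l : ℕ}

/-- `c` is the cyclotomic character modulo `l` -/
structure Ce (l : ℕ) (c : GQ →* (ZMod l)ˣ) : Prop where
  ne : l ≠ 0
  act : ∀ g (z : Qb), z ^ l = 1 → g z = z ^ (c g : ZMod l).val
  ker : ∀ g, g ∈ Hm l ↔ c g = 1

theorem ex_ce (h : l ≠ 0) : ∃ c, Ce l c := by
  have : NeZero l := ⟨h⟩
  obtain ⟨ζ, c, h1, h2, h3, -⟩ := ex_cy l
  refine ⟨c, h, fun g z hz => ?_, h3⟩
  obtain ⟨i, -, rfl⟩ := h1.eq_pow_of_pow_eq_one hz
  rw [map_pow, h2, ← pow_mul, ← pow_mul, mul_comm]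

/-- the indices -/
abbrev Jx (l : ℕ) : Type := GQ ⧸ Hm l

/-- the representatives -/
def so (l : ℕ) (i : Jx l) : GQ := i.out

/-- the action -/
def pa (l : ℕ) (g : GQ) (i : Jx l) : Jx l := g • i

/-- the exponents -/
def ka (c : GQ →* (ZMod l)ˣ) (i : Jx l) : ℤ := (c (so l i) : ZMod l).val

theorem fin_jx (h : l ≠ 0) : Finite (Jx l) := (Hm l).quotient_finite_of_isOpen (Hm_open h)

theorem tr (l : ℕ) : Kc.Tr ⊤ (Hm l) (so l) (pa l) :=
  ⟨le_top, fun _ => trivial, fun g _ i => by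
    rw [mul_assoc, ← QuotientGroup.eq, so, QuotientGroup.out_eq', pa, so]
    exact (MulAction.Quotient.mk_smul_out _ g i).symm,
    fun i j h => by simpa [so] using QuotientGroup.eq.2 h⟩

/-- the weight on the units -/
def wt (l : ℕ) (f : ℕ → ℤ) (x : ZMod l) : ℤ := if IsUnit x then f x.val else 0

theorem wt_un {f : ℕ → ℤ} (x : ZMod l) (h : wt l f x ≠ 0) : IsUnit x :=
  by_contra fun k => h (if_neg k)

/-- the second coordinate of a dual number -/
def sn (n : ℕ) : Dn n →+ Zn n := (TrivSqZeroExt.sndHom (Zn n) (Zn n)).toAddMonoidHom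

theorem sn_il {n : ℕ} (a : Zn n) (x : Dn n) : sn n (il n a * x) = a * sn n x := by
  rw [il, ← Algebra.smul_def]
  rfl

theorem sn_psi {q n : ℕ} {lam : ZMod q → ZMod (2 ^ n)} {χ : GQ → ZMod (2 ^ n)}
    (X : Rb.Lx q n lam χ) (g : GQ) : sn n (psi X g) = χ g := by simp [sn, psi_apply]

theorem der_eq {q n : ℕ} {lam : ZMod q → ZMod (2 ^ n)} {χ : GQ → ZMod (2 ^ n)}
    (X : Rb.Lx q n lam χ) (z : Fm n) (M : ℕ) (g : GQ) :
    der z M X g = sn n ∘ z (M * q) (Dn n) (il n) (psi X) g := rfl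

variable {c : GQ →* (ZMod l)ˣ}

namespace Ce

variable (C : Ce l c)
include C

theorem cyc (g : GQ) : Cyc l g (c g : ZMod l).val := fun a e => by
  have l0 : (l : ℂ) ≠ 0 := Nat.cast_ne_zero.2 C.ne
  have p : ∀ k : ℕ, ze l 1 ^ k = ze l k := fun k => by
    rw [ze, ze, ← Complex.exp_nat_mul]
    congr 1
    push_cast
    ring
  rw [C.act g a ((io : Qb →+* ℂ).injective (by
    rw [map_pow, map_one, RingHom.coe_coe, e, p, ze, Int.cast_natCast, mul_div_cancel_right₀ _ l0,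
      Complex.exp_two_pi_mul_I])), map_pow, e, p]

theorem cast (i : Jx l) : ((ka c i : ℤ) : ZMod l) = c (so l i) := by
  have : NeZero l := ⟨C.ne⟩
  rw [ka, Int.cast_natCast, ZMod.natCast_zmod_val]

theorem mul (g : GQ) (i : Jx l) : c (so l (pa l g i)) = c g * c (so l i) := by
  have := (C.ker _).1 ((tr l).act g trivial i)
  rwa [map_mul, map_mul, map_inv, mul_assoc, inv_mul_eq_one] at this

/-- invariant weights -/
theorem inv {ω : ZMod l → ℤ} {g : GQ} (h : ∀ x : (ZMod l)ˣ, ω (c g * x) = ω x) (i : Jx l) :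
    ω (ka c (pa l g i)) = ω (ka c i) := by rw [C.cast, C.cast, C.mul, Units.val_mul, h]

/-- the value on roots of unity of order dividing `l` -/
theorem act' {m : ℕ} (d : m ∣ l) (g : GQ) (z : Qb) (h : z ^ m = 1) :
    g z = z ^ (c g : ZMod l).val := by
  obtain ⟨k, rfl⟩ := d
  exact C.act g z (by rw [pow_mul, h, one_pow])

/-- the tame character through the exponent -/
theorem lx {q n : ℕ} {lam : ZMod q → ZMod (2 ^ n)} {χ : GQ → ZMod (2 ^ n)} (X : Rb.Lx q n lam χ)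
    (d : q ∣ l) (g : GQ) : χ g = lam ((c g : ZMod l).val : ℕ) := X.eq g _ (C.act' d g)

/-- the weight of `f` -/
theorem wt_apply (f : ℕ → ℤ) (u : (ZMod l)ˣ) : wt l f u = f (u : ZMod l).val := if_pos u.isUnit

/-- the logarithm of a product -/
theorem lx_mul {q n : ℕ} {lam : ZMod q → ZMod (2 ^ n)} {χ : GQ → ZMod (2 ^ n)}
    (X : Rb.Lx q n lam χ) (d : q ∣ l) (g : GQ) (u : (ZMod l)ˣ) :
    lam (((c g * u : (ZMod l)ˣ) : ZMod l).val : ℕ) = χ g + lam ((u : ZMod l).val : ℕ) := by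
  have : NeZero l := ⟨C.ne⟩
  have := Fact.mk X.pr
  have k : ∀ x : ZMod l, ((x.val : ℕ) : ZMod q) = ZMod.castHom d (ZMod q) x := fun x => by
    rw [ZMod.castHom_apply, ZMod.natCast_val]
  have n0 : ∀ v : (ZMod l)ˣ, ZMod.castHom d (ZMod q) v ≠ 0 := fun v => (v.isUnit.map _).ne_zero
  rw [C.lx X d, k, k, k, Units.val_mul, map_mul, X.mul _ _ (n0 _) (n0 _)]

variable {N : ℕ} {ρ : GQ →* M2 (Zn N)} {R : Type} [CommRing R] {ι : Zn N →+* R} {Ψ : GQ →* R}
  {π : R →+ Zn N} (hπ : ∀ a x, π (ι a * x) = a * π x) {A B : ℤ} {e : (Fin 2 → Zn N) →+ Pt A B}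
  (he : ∀ g v, e (ρ g *ᵥ v) = ga g (e v)) {ω : ZMod l → ℤ} (hω : ∀ g, π (Ψ g) = ω (c g))
  {y : GQ → Fin 2 → Zn N} {z : GQ → Pt A B} (hz : ∀ g ∈ Hm l, z g = e (y g))
include hπ he hω hz

theorem cor_eq [Fintype (Jx l)] {g : GQ} (h : ∀ x : (ZMod l)ˣ, ω (c g * x) = ω x) :
    e (π ∘ cor ρ ι Ψ (Hm l) y g) =
      ∑ i, ω (ka c i) • ga (so l (pa l g i)) (z (Kc.ta (so l) (pa l) g i)) := by
  have k : ∀ s v, π ∘ (aa ρ ι Ψ s *ᵥ (ι ∘ v)) = ω (c s) • ρ s *ᵥ v := fun s v => by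
    funext i
    rw [aa, smul_mulVec, Function.comp_apply, Pi.smul_apply, ← RingHom.map_mulVec, smul_eq_mul,
      mul_comm, hπ, hω, Pi.smul_apply, zsmul_eq_mul, mul_comm]
  rw [cor, finsum_eq_sum_of_fintype, ← ((tr l).bij (x := g) trivial).sum_comp,
    show ∀ f : Jx l → Fin 2 → R, π ∘ ∑ i, f i = ∑ i, π ∘ f i from fun f => funext fun j => by simp,
    map_sum]
  refine Finset.sum_congr rfl fun i _ => ?_
  rw [k, map_zsmul, he, ← C.inv h i, C.cast, hz _ ((tr l).ta_mem trivial i), pa, inv_smul_smul]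
  rfl

/-- **the class of the Euler system on a group which kills the character** -/
theorem ch_eq [Fintype (Jx l)] {x : GQ → Fin 2 → R} {r : R} {δ : ℤ} (hr : r = δ)
    (hx : Ch ⊤ (aa ρ ι Ψ) x (r • cor ρ ι Ψ (Hm l) y)) : ∃ t : Pt A B, 2 ^ N • t = 0 ∧
    ∀ g, Ψ g = 1 → (∀ u : (ZMod l)ˣ, ω (c g * u) = ω u) → e (π ∘ x g) =
      δ • ∑ i, ω (ka c i) • ga (so l (pa l g i)) (z (Kc.ta (so l) (pa l) g i)) + (ga g t - t) := by
  obtain ⟨w, hw⟩ := hx
  refine ⟨e (π ∘ w), e_tor e _, fun g h1 h => ?_⟩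
  rw [← C.cor_eq hπ he hω hz h, ← he, ← map_zsmul, ← map_sub, ← map_add, eq_add_of_sub_eq' (hw g trivial)]
  congr 1
  funext i
  simp only [aa, h1, mulVec, dotProduct, hπ, hr, one_smul, Function.comp_apply, Pi.add_apply,
    Pi.sub_apply, Pi.smul_apply, map_add, map_sub, map_sum, map_apply, smul_eq_mul, ← zsmul_eq_mul,
    map_zsmul]

end Ce

section

variable {N : ℕ} {ρ : GQ →* M2 (Zn N)} {S : Finset ℕ} {a a' : ℕ → ℤ} {Ad : ℕ → Prop} {z : Fm N}
  {ε : GQ →* Zn N} {d : ℕ}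

/-- the twisted family -/
def tz (ε : GQ →* Zn N) (z : Fm N) : Fm N := fun M A _ ι Ψ => z M A ι (ι.toMonoidHom.comp ε * Ψ)

theorem aa_tw {R : Type} [CommRing R] (ι : Zn N →+* R) (Ψ : GQ →* R) :
    aa (am ρ (RingHom.id _) ε) ι Ψ = aa ρ ι (ι.toMonoidHom.comp ε * Ψ) := by
  ext g i j
  simp [aa, am, mul_comm, mul_left_comm]

variable (cd : Cd d ε) (sq : ∀ g, ε g ^ 2 = 1)
  (ha : ∀ l P φ, P022E.GW.Ov l P → l ∉ S → P022E.GW.Fb l P φ → (a' l : Zn N) = ε φ * a l)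
include cd sq ha

/-- twisting by a quadratic character -/
theorem gr_tw (G : Gr ρ S a Ad) (hd : ∀ p, p.Prime → p ∣ d → p ∈ S) :
    Gr (am ρ (RingHom.id _) ε) S a' fun M => Ad M ∧ d ∣ M := by
  have e : ∀ g, am ρ (RingHom.id _) ε g = ε g • ρ g := fun g => by ext; simp [am, aa]
  refine ⟨G.two, fun l P o s i m => ?_, fun l P φ o s f => ?_, fun M m => G.pos M m.1,
    fun M m => ⟨G.ad2 M m.1, m.2.mul_right _⟩, fun M l m p s n => ⟨G.adl M l m.1 p s n, m.2.mul_right _⟩⟩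
  · rw [e, G.unr l P o s i m, cd i (inert_Hm o (fun k => s (hd l o.1 k)) m), one_smul]
  · rw [e, Matrix.det_smul, trace_smul, (G.frb l P φ o s f).1, (G.frb l P φ o s f).2, ha l P φ o s f,
      Fintype.card_fin, sq, one_mul, smul_eq_mul]
    exact ⟨rfl, rfl⟩

theorem eu_tw (E : Eu ρ S a Ad z) :
    Eu (am ρ (RingHom.id _) ε) S a' (fun M => Ad M ∧ d ∣ M) (tz ε z) := by
  have k : ∀ {M} {R : Type} [CommRing R] (ι : Zn N →+* R) {Ψ : GQ →* R}, d ∣ M → Cd M Ψ →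
      Cd M (ι.toMonoidHom.comp ε * Ψ) := fun ι _ m h => ((cd.mono m).map ι).mul h
  refine ⟨fun M R _ ι Ψ m h => aa_tw ι Ψ ▸ E.co M R ι _ m.1 (k ι m.2 h),
    fun M R R' _ _ f ι Ψ g i m => (E.map M R R' f ι _ g i m.1).trans ?_,
    fun M R _ ι Ψ m h => E.two M R ι _ m.1 (k ι m.2 h),
    fun M R _ ι Ψ l P φ m h o s n f => (E.odd M R ι _ l P φ m.1 (k ι m.2 h) o s n f).trans ?_⟩
  · rw [tz, show f.toMonoidHom.comp (ι.toMonoidHom.comp ε * Ψ) =
      (f.comp ι).toMonoidHom.comp ε * f.toMonoidHom.comp Ψ from MonoidHom.ext fun g => by simp]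
  · have e1 := congrArg ι (ha l P φ o s f)
    have e2 := congrArg ι (sq φ)
    simp only [map_intCast, map_mul, map_pow, map_one] at e1 e2
    rw [tz, e1]
    congr 1
    simp only [MonoidHom.mul_apply, MonoidHom.comp_apply, RingHom.toMonoidHom_eq_coe,
      MonoidHom.coe_coe]
    linear_combination Ψ φ ^ 2 * e2

end

end Vale.Agent.P014T.Pl.Zw
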