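import Vale.Agent.P014T.Pl.St
import Vale.Agent.P014T.Pl.Lwx
import Vale.Agent.P014T.Es.Md
import Vale.Agent.P014T.Ig.All
import Vale.Agent.P014T.La.Per
import Vale.Agent.P004Z.EF.All

/-! # P014T, block PRL: the analytic rows -/

set_option autoImplicit false
set_option linter.all false

open UpperHalfPlane Real
open scoped MatrixGroups

noncomputable section

namespace Vale.Agent.P014T.Pl

open Vale.Agent.P004M.TE (al)
open P004N P004Z Top An P027H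
open Lc (Wq)

variable {A B : ℤ} {N : ℕ} {G : ℍ → ℂ} {a : ℕ → ℤ}

namespace Lw

theorem del (A B : ℤ) : (Wq (sI A B)).Δ = -16 * (4 * A ^ 3 + 27 * B ^ 2 : ℤ) := by
  simp [sI, WeierstrassCurve.Δ, WeierstrassCurve.b₂, WeierstrassCurve.b₄, WeierstrassCurve.b₆,
    WeierstrassCurve.b₈]
  ring

/-- the shape of the period lattice -/
theorem shape {Λ : Submodule ℤ ℂ} (h : IsLat Λ) (h2 : g2 Λ = -4 * A) (h3 : g3 Λ = -4 * B) :
    0 < w0 A B ∧ ∃ v : ℝ, 0 < v ∧ ∀ z, z ∈ Λ ↔ ∃ m n : ℤ, z = m * w0 A B +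
      n * ((if 4 * A ^ 3 + 27 * B ^ 2 < 0 then 0 else w0 A B / 2 : ℝ) + v * Complex.I) := by
  obtain ⟨w, v, w1, v0, s, e⟩ := Rp.rp (Wq (sI A B)) h one_pos
    (by rw [h2]; simp [sI, WeierstrassCurve.c₄, WeierstrassCurve.b₂, WeierstrassCurve.b₄]; ring)
    (by rw [h3]; simp [sI, WeierstrassCurve.c₆, WeierstrassCurve.b₂, WeierstrassCurve.b₄,
      WeierstrassCurve.b₆]; ring)
  have k : 0 < (Wq (sI A B)).Δ ↔ 4 * A ^ 3 + 27 * B ^ 2 < 0 := by
    rw [del, ← Int.cast_lt_zero (R := ℚ)]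
    constructor <;> intro k <;> linarith
  simp only [k] at s e
  obtain rfl : w0 A B = w := by
    rw [w0, e, Bt.p0]
    split_ifs <;> simp
  exact ⟨w1, v, v0, s⟩

theorem w0_pos (h : El A B) : 0 < w0 A B := by
  obtain ⟨Λ, l, h2, h3, -⟩ := exists_unif A B (by exact_mod_cast h)
  exact (shape l h2 h3).1

theorem ex_at (h : El A B) (f : Nf A B N G a) : ∃ S₀, Pm S₀ ∧ 2 ∈ S₀ ∧ ∀ S : Finset ℕ, S₀ ⊆ S →
    ∀ n : ℕ, n.Coprime (∏ p ∈ S, p) →
      al A B n = a n ∧ (Wq (sI A B)).LFunction n = a n := by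
  have : (Wq (sI A B)).IsElliptic := ⟨by
    rw [del]; exact (mul_ne_zero (by norm_num) (Int.cast_ne_zero.2 h)).isUnit⟩
  have m : Sm.Md (Wq (sI A B)) A B 1 0 0 0 := La.Pe.md_sI A B
  obtain ⟨T, -, b, t⟩ := Lk.at_fin m f.rn f.fin
  refine ⟨T.primeFactors, fun p => Nat.prime_of_mem_primeFactors, Nat.prime_two.mem_primeFactors
    (Dvd.dvd.trans (by rw [Lk.bd, Int.natAbs_mul]; exact dvd_mul_right _ _) b) t.1,
    fun S k n c => ?_⟩
  have := t.2 n (Nat.coprime_of_dvd fun p hp d e => hp.one_lt.ne' (Nat.eq_one_of_dvd_one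
    (c ▸ Nat.dvd_gcd d (Finset.dvd_prod_of_mem _ (k (hp.mem_primeFactors e t.1))))))
  exact ⟨by rw [← Lk.lf_md m, this], this⟩

theorem van (h : Van1 a 1) : Rk.Lw a 1 = 0 := by
  rw [Rk.Lw_eq, M0, ← mul_zero (2 * π : ℂ), ← h]
  simp [qs, P004Z.tw]

end Lw

open Lw

/-- **the real parts of the modular symbols** -/
theorem hd (h : El A B) (f : Nf A B N G a) : ∃ D : ℕ, D ≠ 0 ∧ ∀ r : ℚ, ∃ k : ℤ,
    D * (Rk.Lw a fun n => ee (n * r)).re = k * w0 A B := by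
  obtain ⟨ε, nf⟩ := Ar.nf_of_rn f.rn
  obtain ⟨A', B', w, Λ', I, x, y, p⟩ := EF.par N G a ε nf
  obtain ⟨Λ, l, h2, h3, -⟩ := exists_unif A B (by exact_mod_cast h)
  obtain ⟨n, n0, hn⟩ := Ig.isog l h2 h3 p.lat p.g2_eq p.g3_eq ((f.fin.union p.mat).subset
    fun q k => by_contra fun e => by
      simp only [Set.mem_union, Set.mem_setOf_eq, k.1, true_and, not_or, not_not] at e
      exact k.2 (e.1.trans e.2.symm))
  obtain ⟨m, m0, hm⟩ := Es.md f.rn p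
  obtain ⟨-, v, -, s⟩ := shape l h2 h3
  refine ⟨2 * n * m, by positivity, fun r => ?_⟩
  obtain ⟨g, u, v⟩ := (Int.isCoprime_iff_gcd_eq_one.2 r.reduced :
    IsCoprime r.num (r.den : ℤ)).exists_SL2_col 0
  have w0' : (w : ℂ) ≠ 0 := Nat.cast_ne_zero.2 p.wpos.ne'
  have e := Rk.Lw_cusp f.rn g (by rw [v]; exact_mod_cast r.den_nz)
    (((Es.tend f.rn p g).const_mul (w : ℂ)).congr fun z => by rw [p.I_eq, mul_div_cancel₀ _ w0'])
  rw [u, v, Int.cast_natCast, ← Rat.cast_def] at e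
  obtain ⟨i, j, k⟩ := (s _).1 (hn _ (hm _ (Es.cv_mem I g)))
  have := congrArg Complex.re k
  rw [e]
  split_ifs at this
  · exact ⟨w * (2 * i), by simp at this ⊢; linear_combination 2 * w * this⟩
  · exact ⟨w * (2 * i + j), by simp at this ⊢; linear_combination 2 * w * this⟩

theorem der_row : DER := fun A B N G a h f v => by
  obtain ⟨S₀, p, -, k⟩ := ex_at h f
  refine ⟨S₀, p, fun S L s hS hL => (vals f.rn hS (fun n => ?_) hL.1 hL.2).2.2 (van v)⟩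
  rw [T8.inc]
  split_ifs with c
  · simp [cE, (k S s n c).2]
  · simp

theorem lwx_row : LWX := fun A B N G a h f v => by
  obtain ⟨S₀, p, p2, k⟩ := ex_at h f
  obtain ⟨D, D0, hD⟩ := hd h f
  have w1 := (w0_pos h).ne'
  refine ⟨S₀, p, fun S s hS => ?_⟩
  obtain ⟨e, he⟩ := pow_unbounded_of_one_lt ‖((ES N a S / D : ℚ) : ℂ_[2])‖ one_lt_two
  refine ⟨e, fun l n W hl lS hW WS => ?_⟩
  have d0 : (D : ℂ) ≠ 0 := Nat.cast_ne_zero.2 D0
  have w2 : (w0 A B : ℂ) ≠ 0 := Complex.ofReal_ne_zero.2 w1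
  have key := fun (F : Type) [Field F] [IsAlgClosed F] (j : F →+* ℂ) x hx => lwx f.rn (van v) w1 hD hS
    (fun n c => (k S s n c).1) hl lS hW.mul hW.neg WS j (x := x) hx
  obtain ⟨t, -, -, ht, -⟩ := key ℂ (RingHom.id ℂ) _ (div_mul_cancel₀ _ w2)
  refine ⟨ES N a S * t / D, ?_, fun j x ι hx => ?_⟩
  · push_cast
    rw [div_mul_eq_mul_div, mul_assoc, ht, mul_left_comm, mul_div_cancel_left₀ _ d0]
    rfl
  · obtain ⟨t', y, iy, ht', e'⟩ := key _ j x hx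
    obtain rfl : t' = t := by exact_mod_cast mul_right_cancel₀ w2 (ht'.trans ht.symm)
    have := lwx_nrm (l := 1) ι (x := l * x) D0 odd_one iy (by simpa [mul_assoc] using e')
    rw [map_sub, map_ratCast]
    simpa using this.trans he.le

end Vale.Agent.P014T.Pl
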