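import Vale.Agent.P014T.Pl.Prl
import Vale.Agent.P014T.Pl.Fin
import Vale.Agent.P014T.Pl.Lwr
import Vale.Agent.P014T.Nd.Tga
import Vale.Agent.P014T.Nv.Nv
import Vale.Agent.P014T.Tg.All

/-! # P014T, block PRL: wiring -/

set_option autoImplicit false
set_option linter.all false

namespace Vale.Agent.P014T.Pl

open Top

theorem tga_row (V : Nv.NVD) : TGA := fun A B N G a h nf s1 s2 s3 =>
  (V N G a nf.rn s1 1 0 one_ne_zero).elim fun _ k =>
    Nd.tga Z.gzx_all Tg.tgz_all h nf.rn nf.fin s1 s2 k.1 s3 k.2.2.2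

theorem prl_all (M : MODN) (V : Nv.NVD) : PRL := prl M Nv.sgr der_row (tga_row V) lwx_row

/-- **the row of rank one** -/
theorem bv1_all (M : MODN) (V : Nv.NVD) : BV 1 := bv1 M (prl_all M V)

end Vale.Agent.P014T.Pl
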