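import Vale.Agent.P014T.Pl.St
import Vale.Agent.P014T.Rb.Dia
import Vale.Agent.P014T.Nd.All

/-! # P014T, block PRL: Rubin, tame Gross-Zagier and the choice of the prime -/

set_option autoImplicit false
set_option linter.all false

open NumberField
open scoped Classical

noncomputable section

namespace Vale.Agent.P014T.Pl.Co

open Vale.Agent.P022 (Qb GQ)
open Vale.Agent.P022K.G2 (In)
open Vale.Agent.P022D.W (dec)
open Vale.Agent.P022E.GW (Ov Fb)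
open Vale.Agent.P004S.Ga (K O mem_O)
open Vale.Agent.P004S.Aq
open Vale.Agent.P004F (hq)
open Vale.Agent.P004F.Rc (mq mq_eq hn hn_mul nat_iff)
open Vale.Agent.P004K (K1)
open Vale.Agent.P004M.TE (Pt ga al)
open Top
open Bx (nu K1s)
open Bt (dd Zl dd_apply)
open Wm (Fx)
open Cp (Sb ivP)
open Rb (Lx Cn lq top1 lq_tor mq_int ex_lx ex_k1)
open Tg (Lw)

variable {A B : ℤ}

/-- the rational torsion points are killed by one number -/
theorem ex_e (h : El A B) : ∃ e : ℕ, e ≠ 0 ∧ ∀ T ∈ Fx A B ⊤, IsOfFinAddOrder T → e • T = 0 := by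
  have := Wm.finite (A := A) (B := B) (Γ := ⊤) h isOpen_univ
  have := Module.finite_of_fg_torsion (Submodule.torsion ℤ (Fx A B ⊤)) Submodule.torsion_isTorsion
  refine ⟨Nat.card (Submodule.torsion ℤ (Fx A B ⊤)), Nat.card_pos.ne', fun T m t => ?_⟩
  obtain ⟨n, n0, e⟩ := isOfFinAddOrder_iff_nsmul_eq_zero.1 t
  exact congrArg (fun x => x.1.1) (card_nsmul_eq_zero' (x := (⟨⟨T, m⟩, ⟨n, mem_nonZeroDivisors_of_ne_zero
    (Nat.cast_ne_zero.2 n0.ne')⟩, Subtype.ext ((natCast_zsmul T n).trans e)⟩ :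
      Submodule.torsion ℤ (Fx A B ⊤))))

theorem two_mem (h : El A B) : 2 ∈ Sb A B := Nat.mem_primeFactors.2 ⟨Nat.prime_two,
  Int.natCast_dvd.1 (dvd_mul_right _ _), Int.natAbs_ne_zero.2 (mul_ne_zero two_ne_zero h)⟩

/-- the formula of Rubin with scalars -/
theorem rb (h : El A B) (n : ℕ) : ∃ u : ℤ, Odd u ∧ ∀ (S : Finset ℕ) (l : ℕ)
    (W : ZMod l → ZMod (2 ^ n)) χ (L P : Ideal (𝓞 Qb)) (Y : Fx A B ⊤) (R Y' : Pt A B) (k c d : ℤ)
    (z₀ z₁ : GQ → Pt A B) (s : K), Ov 2 P → Sb A B ⊆ S → l ∉ S → Lx l n W χ → (∀ p ∈ S, W p = 0) →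
    Ov l L → K1 L (d • Y.1) → (∀ p ∈ S, ∃ V, Ov p V ∧ K1 V (d • Y.1)) → Cn n z₁ →
    (∀ g ∈ In (insert l S : Finset ℕ), z₁ g = 0) →
    (∀ g j, z₁ (g * j) = z₁ g + ga g (z₁ j) + (χ g).val • ga g (z₀ j)) →
    (∀ g, c • z₀ g = ga g R - R) → 2 ^ n • R = k • d • Y.1 → 2 ^ n • Y' = Y.1 →
    Iv.iv P (Cp.cp (Ki.wp (hq h)) n (dd A B Y') z₁) = mq s →
    8 * u * c * d * s - 8 * k * (hn n * (W (nu (d • Y.1))).val) ∈ O := by
  obtain ⟨u, ou, ht⟩ := top1 h n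
  refine ⟨u, ou, fun S l W χ L P Y R Y' k c d z₀ z₁ s o2 hS lS X l0 o kY dv c1 un dz hc hR hY hs => ?_⟩
  have s2 := hS (two_mem h)
  have zn : Cp.Zn (dec P) n z₁ :=
    ⟨c1.lc.comp_continuous continuous_subtype_val, fun g hg j _ => by
      simp only [dz, X.dz o2 (fun e => lS (e ▸ s2)) (l0 2 s2) hg, ZMod.val_zero, zero_nsmul,
        add_zero], fun g _ => c1.tor g⟩
  have p2 : (0 : ℤ) < 2 ^ n := by positivity
  obtain ⟨j, hj⟩ := Int.eq_ofNat_of_zero_le (Int.emod_nonneg k p2.ne')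
  have hk : k = j + 2 ^ n * (k / 2 ^ n) := by rw [← hj, Int.emod_add_mul_ediv]
  generalize k / 2 ^ n = q at hk
  obtain ⟨m', key⟩ := ht S l W χ L P o2 (d • Y) (R - q • d • Y.1) j (fun g => c • z₁ g) hS lS X
    (fun p m _ => l0 p m) o kY (fun p m _ _ => dv p m)
    (by rw [nsmul_sub, hR, hk, AddSubgroup.coe_zsmul]; module) (c1.lc.comp fun v => c • v)
    (fun g => by rw [smul_comm, c1.tor, zsmul_zero]) (fun g j => by
      have k1 := congrArg (ga g) (hc j)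
      simp only [map_sub, map_zsmul, Y.2 j trivial, dz] at k1 ⊢
      linear_combination (norm := module) (χ g).val • k1)
    fun i hi => by simp only [un i hi, zsmul_zero]
  rw [show (⟨_, m'⟩ : Zl A B (dec P)) = c • ⟨_, zn.mem⟩ from rfl, map_zsmul,
    show (⟨(d • Y).1, fun g _ => (d • Y).2 g trivial⟩ : Fx A B (dec P)) =
      d • ⟨Y.1, fun g _ => Y.2 g trivial⟩ from rfl, map_zsmul, AddMonoidHom.zsmul_apply,
    (Cp.pr_eq (Ki.pr (hq h)) (ivP o2) ⟨Y.1, fun g _ => Y.2 g trivial⟩ ⟨z₁, zn.mem⟩ hY zn).trans hs]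
    at key
  have t2 := lq_tor (lam := W) (nu (d • Y.1))
  rw [← mq_eq, show (8 * u * c * d * s : K) = (8 * u * c * d : ℤ) * s by push_cast; ring,
    show (8 * k : K) = (8 * k : ℤ) by push_cast; ring, mq_int, mq_int, hk]
  change _ = _ • lq W (nu (d • Y.1))
  change _ = _ • lq W (nu (d • Y.1)) at key
  linear_combination (norm := module) key - (8 * q) • t2

theorem nm2 (n : ℕ) : ‖(2 : K) ^ n‖ * 2 ^ n = 1 := by
  rw [norm_pow, show ‖(2 : K)‖ = 2⁻¹ by simpa using Padic.norm_p (p := 2), ← mul_pow]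
  norm_num

theorem nmi (k : ℤ) : ‖(k : K)‖ ≤ 1 := Padic.norm_int_le_one k

theorem nmo {u : ℤ} (h : Odd u) : ‖(u : K)‖ = 1 := (nmi u).antisymm (not_lt.1 fun e =>
  Int.not_even_iff_odd.2 h (even_iff_two_dvd.2 (Padic.norm_intCast_lt_one_iff.1 e)))

theorem nmw {b w : ℕ} (h : ¬ 2 ^ b ∣ w) : 1 < ‖(w : K)‖ * 2 ^ b := by
  rw [← nat_iff, mem_O, not_le, norm_mul, hn, norm_inv] at h
  rwa [mul_comm, eq_inv_of_mul_eq_one_right (nm2 b)]

theorem ex_s {n : ℕ} {a b : ℤ} (h : (a : ZMod (2 ^ n)) = b) : ∃ s : ℤ, (a : K) = b + 2 ^ n * s := by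
  obtain ⟨s, e⟩ := (ZMod.intCast_eq_intCast_iff_dvd_sub b a _).1 h.symm
  exact ⟨s, by exact_mod_cast congrArg (Int.cast : ℤ → K) (eq_add_of_sub_eq' e)⟩

variable {ms : ℝ → ℂ} {r Ω : ℂ} {S : Finset ℕ} {P : Ideal (𝓞 Qb)}

/-- the choice of the prime -/
theorem pick (h : El A B) (X : Fx A B ⊤) (nt : ¬ IsOfFinAddOrder X.1) (tg : TG A B ms X.1 r)
    (hS : Pm S) : ∃ M b : ℕ, M ≠ 0 ∧ ∀ n L : ℕ, b ≤ n → ∃ (l : ℕ) (V : Ideal (𝓞 Qb))
      (W : ZMod l → ZMod (2 ^ n)) (z s : ℤ), L < l ∧ l ∉ S ∧ Ov l V ∧ Lw l (2 ^ n) W ∧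
      Nd.Lb A B l W ∧ (∀ p ∈ S, W p = 0) ∧ K1 V (nq A B l • X.1) ∧ z * r = M * ws ms W ∧
      1 < ‖((W (nu (nq A B l • X.1))).val : K)‖ * 2 ^ b ∧
      (2 * nq A B l * z : K) = -(M * (W (nu (nq A B l • X.1))).val) + 2 ^ n * s := by
  obtain ⟨M, L₀, T, Γ, M0, hT, op, nm, tg⟩ := tg
  obtain ⟨b, hb⟩ := Nd.t4 (S := S ∪ T) h (fun g => X.2 g trivial) nt
    (fun q m => (Finset.mem_union.1 m).elim (hS q) (hT q)) op nm
  refine ⟨M, b, M0, fun n L bn => ?_⟩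
  obtain ⟨l, V, φ, W, a1, a2, o, f, m, -, w0, lb, a3, -, -, k1, a4⟩ :=
    hb n (Finset.range (L + L₀ + 1)) bn
  rw [Finset.mem_range] at a1
  have lw : Lw l (2 ^ n) W := ⟨w0, lb.neg, lb.mul⟩
  obtain ⟨z, e1, e2⟩ := tg l V φ n W (by omega) o f m lw fun p m => a3 p (by simp [m])
  obtain ⟨s, e⟩ := ex_s (b := -(M * (W (nu (nq A B l • X.1))).val)) (e2.trans (by simp))
  exact ⟨l, V, W, z, s, by omega, fun m => a2 (by simp [m]), o, lw, lb,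
    fun p m => a3 p (by simp [m]), k1, e1, nmw a4, by exact_mod_cast e⟩

/-- rationality -/
theorem rat (h : El A B) (X : Fx A B ⊤) (nt : ¬ IsOfFinAddOrder X.1) (tg : TG A B ms X.1 r)
    (hS : Pm S) (H : ∀ (l n : ℕ) (W : ZMod l → ZMod (2 ^ n)), l.Prime → l ∉ S → Lw l (2 ^ n) W →
      (∀ p ∈ S, W p = 0) → ∃ θ : ℚ, θ * Ω = ws ms W) : ∃ ρ : ℚ, r = ρ * Ω := by
  obtain ⟨M, b, M0, hb⟩ := pick h X nt tg hS
  have p := norm_pos_iff.2 (Nat.cast_ne_zero (R := K) |>.2 M0)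
  obtain ⟨n, hn⟩ := pow_unbounded_of_one_lt (2 ^ b / ‖(M : K)‖) (one_lt_two (α := ℝ))
  obtain ⟨l, V, W, z, s, -, a2, o, lw, -, a3, -, e1, a4, e2⟩ := hb (n + b) 0 le_add_self
  obtain ⟨θ, e⟩ := H l _ W o.1 a2 lw a3
  generalize (W (nu (nq A B l • X.1))).val = w at a4 e2
  have z0 : (z : ℂ) ≠ 0 := Int.cast_ne_zero.2 (by
    rintro rfl
    rw [Int.cast_zero, mul_zero, eq_comm, neg_add_eq_zero] at e2
    have e3 := congrArg (‖·‖ * 2 ^ (n + b)) e2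
    simp only [norm_mul] at e3
    rw [mul_right_comm ‖_ ^ _‖, nm2, one_mul, pow_add] at e3
    rw [div_lt_iff₀ p] at hn
    have := nmi s
    have : (1 : ℝ) ≤ 2 ^ b := one_le_pow₀ one_le_two
    have : (0 : ℝ) < 2 ^ n * ‖(M : K)‖ := by positivity
    nlinarith)
  exact ⟨M * θ / z, by push_cast; field_simp; linear_combination e1 - M * e⟩

/-- **the formula** -/
theorem core (h : El A B) (o2 : Ov 2 P) (X : Fx A B ⊤) (nt : ¬ IsOfFinAddOrder X.1)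
    (tg : TG A B ms X.1 r) (h0 : Ω ≠ 0) {ρ : ℚ} (hρ : r = ρ * Ω) (hS : Pm S) (hb : Sb A B ⊆ S)
    {N : ℕ} (N0 : N ≠ 0) (μ : K) : ∃ C : ℝ, ∀ n z, RZ h P ms Ω S n z (N • X.1) μ → 2 ^ n • z = 0 →
      ∀ (i k : ℤ) (Q : Pt A B), i • z = dd A B Q → IsOfFinAddOrder (2 ^ n • Q - k • X.1) →
        C < ‖i * μ * ρ‖ * 2 ^ n → ‖(2 * k * N : K)‖ = ‖i * μ * ρ‖ := by
  have fX : ∀ g, ga g X.1 = X.1 := fun g => X.2 g trivial
  obtain ⟨M, b, M0, hp⟩ := pick h X nt tg hS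
  obtain ⟨e, e0, he⟩ := ex_e h
  choose! R oR using fun p (m : p ∈ S) => P022K.GW.Pl.ex_ov (hS p m)
  obtain ⟨N₀, n0, hk⟩ := ex_k1 h fX S oR
  have p1 : 0 < ‖(4 * (e * N₀) ^ 2 * N * M : K)‖ := norm_pos_iff.2 (by
    exact_mod_cast (by positivity : 4 * (e * N₀) ^ 2 * N * M ≠ 0))
  have p2 : ‖(4 * (e * N₀) ^ 2 * N * M : K)‖ ≤ 1 := by
    exact_mod_cast nmi (4 * (e * N₀) ^ 2 * N * M : ℕ)
  refine ⟨(1 + ‖μ * ρ‖) * 2 ^ b / ‖(4 * (e * N₀) ^ 2 * N * M : K)‖,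
    fun n z ⟨L, rz⟩ tz i k Q hQ tor hC => ?_⟩
  rw [div_lt_iff₀ p1] at hC
  have q1 : ‖i * μ * ρ‖ ≤ ‖μ * ρ‖ := by
    rw [mul_assoc, norm_mul]
    exact mul_le_of_le_one_left (norm_nonneg _) (nmi i)
  have q0 := norm_nonneg (μ * ρ)
  have bn : b ≤ n := le_of_not_gt fun c => by
    have : (2 : ℝ) ^ n ≤ 2 ^ b := pow_le_pow_right₀ one_le_two c.le
    have : ‖i * μ * ρ‖ * 2 ^ n ≤ ‖μ * ρ‖ * 2 ^ b := by gcongr
    have : (0 : ℝ) < 2 ^ b := by positivity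
    nlinarith [mul_le_of_le_one_right (by positivity : 0 ≤ ‖i * μ * ρ‖ * 2 ^ n) p2]
  obtain ⟨l, V, W, y, s, a1, a2, o, lw, lb, a3, k1, e1, a4, e2⟩ := hp n L bn
  obtain ⟨χ, lx⟩ := ex_lx o.1 lb.mul
  obtain ⟨z₁, t, θ, u', c1, ht, un, dz, eθ, u1, pr⟩ := rz l W χ a1 a2 lx lw a3
  obtain ⟨u, ou, hr⟩ := rb h n
  obtain ⟨X', hX⟩ := (Ki.pr (hq h)).dvp n (N • X.1)
  have ed : (e * N₀ * nq A B l : ℤ) • (N • X).1 = (e * N₀ * N : ℤ) • nq A B l • X.1 := by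
    rw [AddSubgroup.coe_nsmul]; module
  have tT := he (2 ^ n • Q - k • X.1) (sub_mem (fun g _ => by
    rw [map_nsmul, ← sub_eq_zero, ← nsmul_sub, ← dd_apply, ← hQ, Pi.smul_apply, smul_comm,
      show 2 ^ n • z g = 0 from congrFun tz g, zsmul_zero]) (zsmul_mem X.2 k)) tor
  have E := hr S l W χ V P (N • X) ((e * N₀ * N * nq A B l : ℤ) • Q + (i * e * N₀ * N : ℤ) • t) X' k
    (i * e * N₀ * N) (e * N₀ * nq A B l) _ z₁ _ o2 hb a2 lx a3 o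
    (ed ▸ (K1s h o).zsmul_mem k1 _) (fun p m => ⟨R p, oR p m, by
      rw [show (e * N₀ * nq A B l : ℤ) • (N • X).1 = (e * N * nq A B l : ℤ) • N₀ • X.1 by
        rw [AddSubgroup.coe_nsmul]; module]
      exact hk p m _⟩) c1 un dz (fun g => by
      have := congrFun hQ g
      simp only [Pi.smul_apply, dd_apply, map_add, map_zsmul] at this ⊢
      linear_combination (norm := module) (e * N₀ * N * nq A B l : ℤ) • this) (by
      rw [AddSubgroup.coe_nsmul]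
      linear_combination (norm := module) (N₀ * N * nq A B l : ℤ) • tT + (i * e * N₀ * N : ℤ) • ht)
    hX (pr X' hX)
  rw [ed] at E
  have sq := Nd.sq_nu lb o (fun g => by rw [map_zsmul, fX]) k1 (e * N₀ * N)
  generalize W (nu ((e * N₀ * N : ℤ) • nq A B l • X.1)) = w' at E sq
  generalize W (nu (nq A B l • X.1)) = w at sq a4 e2
  obtain ⟨s', e3⟩ := ex_s (n := n) (a := w'.val) (b := (e * N₀ * N) ^ 2 * w.val) (by simp [sq])
  have e4 : (M * θ : K) = y * ρ := by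
    have : (M * θ : ℚ) = y * ρ := by
      have : ((M * θ : ℚ) : ℂ) = (y * ρ : ℚ) :=
        mul_right_cancel₀ h0 (by push_cast; linear_combination M * eθ - e1 + y * hρ)
      exact_mod_cast this
    exact_mod_cast congrArg (Rat.cast : ℚ → K) this
  generalize hE : (_ : K) - _ = E' at E
  have t0 : (2 : K) ^ n ≠ 0 := pow_ne_zero _ two_ne_zero
  have e5 : (4 * (e * N₀) ^ 2 * N * M * w.val * (u * u' * (i * μ * ρ) + 2 * k * N) : K) =
      2 ^ n * (4 * u * u' * i * (e * N₀) ^ 2 * N * s * (μ * ρ) - M * E' - 8 * k * M * s') := by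
    rw [← hE, hn]
    push_cast at e3 ⊢
    field_simp
    linear_combination (4 * u * u' * i * (e * N₀) ^ 2 * N * μ * ρ) * e2 +
      (8 * u * u' * i * (e * N₀) ^ 2 * N * nq A B l * μ) * e4 - 8 * k * M * e3
  have b1 : ‖(4 * u * u' * i * (e * N₀) ^ 2 * N * s * (μ * ρ) - M * E' - 8 * k * M * s' : K)‖ ≤
      1 + ‖μ * ρ‖ := by
    rw [sub_sub]
    refine (norm_sub_le _ _).trans ((add_comm _ _).trans_le (add_le_add ?_ ?_))
    · exact add_mem (O_mul (P004F.Rc.O_nat M) E) (O_of (Nd.O_int (8 * k * M * s')) (by push_cast; rfl))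
    · rw [show (4 * u * u' * i * (e * N₀) ^ 2 * N * s : K) =
        (4 * u * i * (e * N₀) ^ 2 * N * s : ℤ) * u' by push_cast; ring, norm_mul, norm_mul, u1, mul_one]
      exact mul_le_of_le_one_left q0 (nmi _)
  have e6 := congrArg (‖·‖ * 2 ^ n) e5
  simp only [norm_mul (2 ^ n : K), norm_mul (_ * (w.val : K)), norm_mul _ (w.val : K)] at e6
  rw [mul_right_comm ‖(2 : K) ^ n‖, nm2, one_mul] at e6
  have u2 : ‖u * u' * (i * μ * ρ)‖ = ‖i * μ * ρ‖ := by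
    rw [norm_mul, norm_mul, nmo ou, u1, one_mul, one_mul]
  have lt : ‖u * u' * (i * μ * ρ) + 2 * k * N‖ < ‖u * u' * (i * μ * ρ)‖ := by
    rw [u2]
    refine lt_of_not_ge fun c => ?_
    generalize ‖(4 * (e * N₀) ^ 2 * N * M : K)‖ = x at *
    have : ‖i * μ * ρ‖ * 2 ^ n * x ≤ ‖u * u' * (i * μ * ρ) + 2 * k * N‖ * 2 ^ n * x := by gcongr
    have := mul_le_mul_of_nonneg_right (e6.le.trans b1) (by positivity : (0 : ℝ) ≤ 2 ^ b)
    nlinarith [mul_nonneg (mul_nonneg (norm_nonneg (u * u' * (i * μ * ρ) + 2 * k * N))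
      (by positivity : (0 : ℝ) ≤ 2 ^ n)) p1.le]
  rw [← u2, ← norm_neg (u * u' * _), show (2 * k * N : K) =
    -(u * u' * (i * μ * ρ)) + (u * u' * (i * μ * ρ) + 2 * k * N) by ring,
    IsUltrametricDist.norm_add_eq_max_of_norm_ne_norm (by rw [norm_neg]; exact lt.ne'), norm_neg,
    max_eq_left lt.le]

end Vale.Agent.P014T.Pl.Co
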