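import Vale.Agent.P014T.St
import Vale.Agent.P014T.Ht.Can

/-! # P014T, block PRL: the row -/

set_option autoImplicit false
set_option linter.all false

open NumberField
open scoped Classical

noncomputable section

namespace Vale.Agent.P014T.Pl

open Top
open Vale.Agent.P022 (Qb GQ)
open Vale.Agent.P022D.W (dec)
open Vale.Agent.P022E.GW (Ov)
open Vale.Agent.P004S.Ga (K)
open P004M.TE (Pt ga)
open P004N (cE)
open P004N.T8 (inc)
open P004N.H169 (IsLh)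
open P004Z.H (Pl hh)
open Bt (dd)
open Wm (Fx)
open Lc (Wq Lk)
open Ah (Ind)

/-- a rational point as a local point -/
def lc {A B : ℤ} (P : Ideal (𝓞 Qb)) (Y : Fx A B ⊤) : Fx A B (dec P) := ⟨Y.1, fun g _ => Y.2 g trivial⟩

/-- **the link of Perrin-Riou** -/
def PRL : Prop := ∀ (A B : ℤ) (h : El A B), Ar A B 1 →
  ∃ (S₀ : Finset ℕ) (Y : Fx A B ⊤) (v : ℕ → AbsoluteValue Qb ℝ),
    Pm S₀ ∧ ¬ IsOfFinAddOrder Y.1 ∧ Pl v ∧ ∀ S L, S₀ ⊆ S → Pm S →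
      IsLh (inc (∏ p ∈ S, p) (cE (Wq (sI A B)))) L → ∃ ρ : ℚ,
        deriv L 1 = ρ * (w0 A B * (2 * hh v Y.1) : ℝ) ∧
        ∀ c P ι lg σ α m, Ov 2 P → Ind ι P → Lk ι lg → ∃ c₀ : ℕ, ∀ n z,
          Zt h S c P ι lg σ α 0 m n z → ∀ (a k : ℤ) (Q : Pt A B), a • z = dd A B Q →
            IsOfFinAddOrder (2 ^ n • Q - k • Y.1) →
            2 ^ c₀ < ‖(a : K) * σ * ρ * lg (lc P Y)‖ * 2 ^ n →
            ‖(k : K)‖ = ‖(a : K) * σ * ρ * lg (lc P Y)‖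

end Vale.Agent.P014T.Pl
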