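import Vale.Agent.P014T.St
import Vale.Agent.P014T.Bx.Ph
import Vale.Agent.P014T.Tg.St2

/-! # P014T, block PRL (the formula of Perrin-Riou): words and rows -/

set_option autoImplicit false
set_option linter.all false

open NumberField Real
open scoped Classical

noncomputable section

namespace Vale.Agent.P014T.Pl

open Vale.Agent.P022 (Qb GQ)
open Vale.Agent.P022K.G2 (In)
open Vale.Agent.P022E.GW (Ov Fb)
open Vale.Agent.P004S.Ga (K)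
open Vale.Agent.P004F (hq)
open Vale.Agent.P004F.Rc (mq)
open Vale.Agent.P004M.TE (Pt ga al)
open P004N (RN ALw cE)
open P004N.T8 (inc)
open P004N.H169 (IsLh)
open P004Z (Van1)
open P004Z.H (Pl hh)
open Top
open Bx (nu)
open Bt (dd)
open Lc (Wq)
open Rb (Lx Cn)
open Tg (Lw Ms)
open Z (L1)

/-- the weighted sum of modular symbols -/
def ws (ms : ℝ → ℂ) {l m : ℕ} (W : ZMod l → ZMod m) : ℂ :=
  ∑ k ∈ Finset.range l, ((W k).val : ℂ) * ms (k / l)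

/-- the Euler factors of the form -/
def eu (N : ℕ) (a : ℕ → ℤ) (S : Finset ℕ) : ℚ :=
  ∏ p ∈ S, (1 - a p / p + if p ∣ N then 0 else (1 / p : ℚ))

/-- **tame Gross-Zagier** for the point `X`; `r` is the derivative over the height -/
def TG (A B : ℤ) (ms : ℝ → ℂ) (X : Pt A B) (r : ℂ) : Prop :=
  ∃ (M L : ℕ) (T : Finset ℕ) (Γ : Subgroup GQ), M ≠ 0 ∧ Pm T ∧ IsOpen (Γ : Set GQ) ∧ Γ.Normal ∧
    ∀ (l : ℕ) P φ (n : ℕ) (W : ZMod l → ZMod (2 ^ n)), L < l → Ov l P → Fb l P φ → φ ∈ Γ →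
      Lw l (2 ^ n) W → (∀ p ∈ T, W p = 0) → ∃ z : ℤ, z * r = M * ws ms W ∧
        ((2 * nq A B l * z : ℤ) : ZMod (2 ^ n)) = -(M * W (nu (nq A B l • X)))

/-- **the reciprocity law for the derivative of the class `z`** at the point `X` -/
def RZ {A B : ℤ} (h : El A B) (P : Ideal (𝓞 Qb)) (ms : ℝ → ℂ) (Ω : ℂ) (S : Finset ℕ) (n : ℕ)
    (z : GQ → Pt A B) (X : Pt A B) (μ : K) : Prop :=
  ∃ L : ℕ, ∀ (l : ℕ) (W : ZMod l → ZMod (2 ^ n)) χ, L < l → l ∉ S → Lx l n W χ → Lw l (2 ^ n) W →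
    (∀ p ∈ S, W p = 0) → ∃ (z₁ : GQ → Pt A B) (t : Pt A B) (θ : ℚ) (u : K),
      Cn n z₁ ∧ 2 ^ n • t = 0 ∧ (∀ g ∈ In (insert l S : Finset ℕ), z₁ g = 0) ∧
      (∀ g k, z₁ (g * k) = z₁ g + ga g (z₁ k) + (χ g).val • ga g (nq A B l • z k + (ga k t - t))) ∧
      θ * Ω = ws ms W ∧ ‖u‖ = 1 ∧ ∀ X', 2 ^ n • X' = X →
        Iv.iv P (Cp.cp (Ki.wp (hq h)) n (dd A B X') z₁) = mq (u * μ * θ / 2 ^ n)

/-! ## rows -/

/-- the sign and the derivative -/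
def SGN : Prop := ∀ (A B : ℤ) N G a, El A B → Nf A B N G a → Ar A B 1 →
  ALw N N G 1 ∧ Van1 a 1 ∧ L1 a ≠ 0

/-- the derivative of the depleted series -/
def DER : Prop := ∀ (A B : ℤ) N G a, El A B → Nf A B N G a → Van1 a 1 → ∃ S₀, Pm S₀ ∧
  ∀ S L, S₀ ⊆ S → Pm S → IsLh (inc (∏ p ∈ S, p) (cE (Wq (sI A B)))) L →
    deriv L 1 = eu N a S * (2 * π * L1 a)

/-- tame Gross-Zagier on any curve -/
def TGA : Prop := ∀ (A B : ℤ) N G a, El A B → Nf A B N G a → ALw N N G 1 → Van1 a 1 → L1 a ≠ 0 →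
  ∃ (v : ℕ → AbsoluteValue Qb ℝ) (X : Pt A B), Pl v ∧ (∀ g, ga g X = X) ∧ ¬ IsOfFinAddOrder X ∧
    TG A B (Ms G) X (L1 a / hh v X)

/-- the value at a tame logarithm -/
def LWX : Prop := ∀ (A B : ℤ) N G a, El A B → Nf A B N G a → Van1 a 1 → ∃ S₀, Pm S₀ ∧
  ∀ S, S₀ ⊆ S → Pm S → ∃ e : ℕ, ∀ (l n : ℕ) (W : ZMod l → ZMod (2 ^ n)), l.Prime → l ∉ S →
    Lw l (2 ^ n) W → (∀ p ∈ S, W p = 0) → ∃ θ : ℚ,
      θ * w0 A B = eu N a S * (2 * π * ws (Ms G) W) ∧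
      ∀ (j : Qb →+* ℂ) (x : Qb) (ι : Qb →+* ℂ_[2]),
        j x * w0 A B = Rk.Lw (al A B) (cS (insert l S) fun k => (W k).val) →
        ‖ι (l * x - θ)‖ * 2 ^ n ≤ 2 ^ e

end Vale.Agent.P014T.Pl
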