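import Vale.Agent.P014T.Pl.St
import Vale.Agent.P014T.Nd.Tga

/-! # P014T, block PRL: row TGA -/

namespace Vale.Agent.P014T.Pl

open P004N (RN ALw)
open Z (Hg L0 GZX)

/-- the first hypothesis is the text of `Nv.NVD` -/
theorem tga (nv : ∀ N G a, RN N G a → ALw N N G 1 → ∀ M T : ℕ, M ≠ 0 →
    ∃ d : ℕ, Hg N d 1 ∧ T ≤ d ∧ M ∣ d + 1 ∧ L0 a d ≠ 0) (gz : GZX) (tg : Tg.TGZ) : TGA :=
  fun _ _ N G a h f w v l =>
    let ⟨_, g, _, _, k⟩ := nv N G a f.rn w 1 0 one_ne_zero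
    Nd.tga gz tg h f.rn f.fin w v g l k

end Vale.Agent.P014T.Pl
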